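import Vale.Agent.P058.Cor

namespace Vale.Agent.Results.P058.Characterization

open scoped TensorProduct

/-- Euclidean space of dimension `n`. -/
abbrev E (n : ℕ) := EuclideanSpace ℝ (Fin n)

/-- `φ` preserves all distances between points of `A`. -/
def PreservesDist {d D : ℕ} (A : Finset (E d)) (φ : E d → E D) : Prop :=
  ∀ a ∈ A, ∀ b ∈ A, dist (φ a) (φ b) = dist a b

/-- Euclidean Ramsey sets. -/
def Ramsey {d : ℕ} (A : Finset (E d)) : Prop :=
  ∀ r : ℕ, 2 ≤ r → ∃ D : ℕ, 1 ≤ D ∧ ∀ c : E D → Fin r,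
    ∃ φ : E d → E D, PreservesDist A φ ∧ ∃ k, ∀ a ∈ A, c (φ a) = k

/-- The isometries of the space mapping `X` onto itself act transitively on `X`. -/
def TransitiveSet {n : ℕ} (X : Finset (E n)) : Prop :=
  ∀ p ∈ X, ∀ q ∈ X, ∃ f : E n ≃ᵢ E n, f '' (X : Set (E n)) = X ∧ f p = q

/-- Congruent to a subset of a finite transitive set. -/
def Subtransitive {d : ℕ} (A : Finset (E d)) : Prop :=
  ∃ (n : ℕ) (X : Finset (E n)), TransitiveSet X ∧
    ∃ φ : E d → E n, PreservesDist A φ ∧ ∀ a ∈ A, φ a ∈ X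

/-- Homogeneous coordinates `(1, a₁, …, a_d)`. -/
def homog {d : ℕ} (a : E d) : Option (Fin d) → ℝ
  | none => 1
  | some i => a i

/-- The algebraic criterion: a matrix `P` over the ring `ℝ ⊗[ℚ] ℝ` whose form vanishes at every
point of `A` and whose spatial block multiplies out to the identity matrix. -/
def Criterion {d : ℕ} (A : Finset (E d)) : Prop :=
  ∃ P : Option (Fin d) → Option (Fin d) → ℝ ⊗[ℚ] ℝ,
    (∀ a ∈ A, ∑ i, ∑ j, (homog a i ⊗ₜ[ℚ] homog a j) * P i j = 0) ∧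
      ∀ i j : Fin d, LinearMap.mul' ℚ ℝ (P (some i) (some j)) = if i = j then 1 else 0

open Vale.Agent.P058

def co {d : ℕ} (A : Finset (E d)) : A → Fin d → ℝ := fun a => a.1.ofLp

lemma dist_iff {d D : ℕ} (a b : E d) (p q : E D) :
    dist p q = dist a b ↔ ∑ c, (p c - q c) ^ 2 = ∑ c, (a c - b c) ^ 2 := by
  rw [EuclideanSpace.dist_eq, EuclideanSpace.dist_eq,
    Real.sqrt_inj (by positivity) (by positivity)]
  simp only [Real.dist_eq, sq_abs]

lemma crit_iff {d : ℕ} (A : Finset (E d)) : Criterion A ↔ TC (co A) := by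
  have : ∀ (a : A) i, pp (co A) a i = homog a.1 i := fun a i => by cases i <;> rfl
  simp only [Criterion, TC, this, Subtype.forall]

lemma ram_iff {d : ℕ} (A : Finset (E d)) : Ramsey A ↔ RamH (co A) := by
  classical
  refine forall_congr' fun r => imp_congr_right fun _ => exists_congr fun D =>
    and_congr_right fun _ => ⟨fun h c => ?_, fun h c => ?_⟩
  · obtain ⟨φ, h1, k, h2⟩ := h fun p => c p.ofLp
    exact ⟨fun a => (φ a).ofLp, fun a b => (dist_iff _ _ _ _).1 (h1 _ a.2 _ b.2), k,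
      fun a => h2 _ a.2⟩
  · obtain ⟨y, h1, k, h2⟩ := h fun p => c (WithLp.toLp 2 p)
    refine ⟨fun a => if h : a ∈ A then WithLp.toLp 2 (y ⟨a, h⟩) else 0, fun a ha b hb => ?_, k,
      fun a ha => ?_⟩
    · simp only [ha, hb, dite_true]
      exact (dist_iff _ _ _ _).2 (h1 ⟨a, ha⟩ ⟨b, hb⟩)
    · simp only [ha, dite_true]; exact h2 _

lemma tr_of {n : ℕ} {X : Finset (E n)} (h : TransitiveSet X) : Tr (co X) := by
  intro p q
  obtain ⟨f, h1, h2⟩ := h _ p.2 _ q.2
  have h3 : ∀ a, a ∈ X ↔ f a ∈ X := fun a => by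
    rw [← Finset.mem_coe, ← Finset.mem_coe (a := f a), ← f.injective.mem_set_image, h1]
  exact ⟨f.toEquiv.subtypeEquiv h3, fun a b => (dist_iff _ _ _ _).1 (f.dist_eq _ _),
    Subtype.ext h2⟩

lemma main {d : ℕ} (A : Finset (E d)) (hA : A.Nonempty) : Ramsey A ↔ Criterion A := by
  classical
  have := hA.to_subtype
  rw [ram_iff, crit_iff]
  exact ⟨necessity, sufficiency fun a b h => Subtype.ext (WithLp.ofLp_injective 2 h)⟩

theorem result :
    (∀ (d : ℕ) (A : Finset (E d)), A.Nonempty → (Ramsey A ↔ Criterion A)) ∧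
    (∀ (d : ℕ) (A : Finset (E d)), A.Nonempty → Subtransitive A → Ramsey A) ∧
    (∃ A : Finset (E 2), A.Nonempty ∧ Ramsey A ∧ ¬ Subtransitive A) := by
  classical
  refine ⟨fun d A => main A, fun d A hA h => ?_, ?_⟩
  · obtain ⟨n, X, hX, φ, h1, h2⟩ := h
    have := hA.to_subtype
    rw [main A hA, crit_iff]
    exact TC_of_Tr (tr_of hX) (fun a => ⟨φ a, h2 _ a.2⟩)
      fun a b => (dist_iff _ _ _ _).1 (h1 _ a.2 _ b.2)
  · have hA : (Finset.univ.image fun i => (WithLp.toLp 2 (kite i) : E 2)).Nonempty := by simp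
    refine ⟨_, hA, ?_, ?_⟩
    · rw [main _ hA]
      obtain ⟨P, h1, h2⟩ := kite_TC
      refine ⟨P, fun a ha => ?_, h2⟩
      obtain ⟨i, -, rfl⟩ := Finset.mem_image.1 ha
      convert h1 i using 5 with u _ v _
      · cases u <;> rfl
      · cases v <;> rfl
    · rintro ⟨n, X, hX, φ, h1, h2⟩
      have hm : ∀ i, (WithLp.toLp 2 (kite i) : E 2) ∈
          Finset.univ.image fun i => (WithLp.toLp 2 (kite i) : E 2) :=
        fun i => Finset.mem_image_of_mem _ (Finset.mem_univ i)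
      exact kite_not (tr_of hX) (fun i => ⟨φ _, h2 _ (hm i)⟩)
        fun a b => (dist_iff _ _ _ _).1 (h1 _ (hm a) _ (hm b))

end Vale.Agent.Results.P058.Characterization
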